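import Vale.Agent.helper8.BinPackGap

/-!
# Level-by-level assembly of the table check

The check `certOK` of a long table may be done one level at a time, so that each kernel computation
stays small.
-/

namespace Vale.Agent.helper8.BinPackGap

theorem certOK_cons {x : ℕ} {xs : List ℕ} {l0 l1 : List (List ℕ)} {rest : List (List (List ℕ))}
    (h1 : l0.all (stepOK x l1) = true) (h2 : certOK xs (l1 :: rest) = true) :
    certOK (x :: xs) (l0 :: l1 :: rest) = true := by
  unfold certOK
  simp only [List.headD_cons, List.tail_cons, Bool.and_eq_true]
  exact ⟨h1, h2⟩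

theorem certOK_last {x : ℕ} {l0 : List (List ℕ)}
    (h1 : l0.all (stepOK x []) = true) :
    certOK [x] [l0] = true := by
  unfold certOK
  simp only [List.headD_cons, List.tail_cons, Bool.and_eq_true]
  exact ⟨h1, rfl⟩

end Vale.Agent.helper8.BinPackGap
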