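import Mathlib

/-!
# Bin packing: OPT and the Gilmore-Gomory configuration LP

Definitions follow the problem statement.
-/

namespace Vale.Agent.helper8.BinPackGap

open scoped BigOperators

/-- A bin packing instance: a finite list of rational sizes in `(0, 1]`. -/
def IsInstance (a : List ℚ) : Prop := ∀ x ∈ a, 0 < x ∧ x ≤ 1

/-- The items of `a` can be put into `k` bins, each of total size at most `1`. -/
def PackableIn (a : List ℚ) (k : ℕ) : Prop :=
  ∃ f : Fin a.length → Fin k,
    ∀ b : Fin k, ∑ i ∈ Finset.univ.filter (fun i => f i = b), a.get i ≤ 1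

/-- `OPT a`: the least number of bins into which the items of `a` can be packed. -/
noncomputable def OPT (a : List ℚ) : ℕ := sInf {k | PackableIn a k}

/-- A configuration for `a`: a multiplicity for each distinct size of `a`, of total size at most
`1`.  A size may occur more often than its multiplicity in `a`. -/
def IsConfiguration (a : List ℚ) (c : ℚ → ℕ) : Prop :=
  ∑ σ ∈ a.toFinset, (c σ : ℚ) * σ ≤ 1

/-- `v` is the value of a feasible solution of the Gilmore-Gomory configuration LP of `a`:
finitely many configurations `c j` with weights `z j ≥ 0` cover every distinct size `σ` at least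
as often as it occurs in `a`, and `v` is the sum of the weights. -/
def LPFeasibleValue (a : List ℚ) (v : ℝ) : Prop :=
  ∃ (m : ℕ) (c : Fin m → ℚ → ℕ) (z : Fin m → ℝ),
    (∀ j, IsConfiguration a (c j)) ∧ (∀ j, 0 ≤ z j) ∧
    (∀ σ ∈ a.toFinset, (a.count σ : ℝ) ≤ ∑ j, z j * (c j σ : ℝ)) ∧ v = ∑ j, z j

/-- `LP a`: the optimal value of the Gilmore-Gomory configuration LP of `a`. -/
noncomputable def LP (a : List ℚ) : ℝ := sInf {v | LPFeasibleValue a v}

end Vale.Agent.helper8.BinPackGap
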