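import Vale.Agent.helper8.BinPackDefs

/-!
# A certificate theorem for bin packing gaps

The certificate theorem reduces a lower bound on `OPT a - LP a` to finitely many checks on natural
numbers: a table of infeasible residual-capacity vectors (one level per item) and an explicit
fractional solution of the configuration LP.
-/

namespace Vale.Agent.helper8.BinPackGap

open scoped BigOperators

/-! ### Packing into bins with given residual capacities -/

/-- The distinct entries of a list of natural numbers. -/
def uniq : List ℕ → List ℕ
  | [] => []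
  | x :: xs => if xs.contains x then uniq xs else x :: uniq xs

theorem mem_uniq {r : ℕ} : ∀ {l : List ℕ}, r ∈ l → r ∈ uniq l
  | x :: xs, h => by
    unfold uniq
    by_cases hc : xs.contains x = true
    · rw [if_pos hc]
      rcases List.mem_cons.mp h with rfl | h'
      · exact mem_uniq (List.contains_iff_mem.mp hc)
      · exact mem_uniq h'
    · rw [if_neg hc]
      rcases List.mem_cons.mp h with rfl | h'
      · exact List.mem_cons_self
      · exact List.mem_cons_of_mem _ (mem_uniq h')

/-- The items `xs` can be placed, one after the other, into bins whose residual capacities form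
the multiset `M`. -/
def Fits : List ℕ → Multiset ℕ → Prop
  | [], _ => True
  | x :: xs, M => ∃ r ∈ M, x ≤ r ∧ Fits xs ((r - x) ::ₘ M.erase r)

theorem fits_of_assignment {ι : Type} [Fintype ι] [DecidableEq ι] :
    ∀ (xs : List ℕ) (cap : ι → ℕ) (f : Fin xs.length → ι),
      (∀ b, ∑ i ∈ Finset.univ.filter (fun i => f i = b), xs.get i ≤ cap b) →
      Fits xs ((Finset.univ : Finset ι).val.map cap)
  | [], _, _, _ => trivial
  | x :: xs, cap, f, h => by
    set b₀ : ι := f ⟨0, Nat.succ_pos _⟩ with hb₀
    have hsum : ∀ b, ∑ i ∈ Finset.univ.filter (fun i => f i = b), (x :: xs).get i =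
        (if b₀ = b then x else 0) +
          ∑ i ∈ Finset.univ.filter (fun i : Fin xs.length => f i.succ = b), xs.get i := by
      intro b
      rw [Finset.sum_filter, Finset.sum_filter]
      have := Fin.sum_univ_succ (n := xs.length)
        (fun i : Fin (xs.length + 1) => if f i = b then (x :: xs).get i else 0)
      have h0 : f 0 = b₀ := rfl
      simpa [h0] using this
    have hx : x ≤ cap b₀ := by
      have := h b₀
      rw [hsum] at this
      simp only [if_true] at this
      omega
    refine ⟨cap b₀, ?_, hx, ?_⟩
    · exact Multiset.mem_map.mpr ⟨b₀, Finset.mem_univ _, rfl⟩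
    · have key : (cap b₀ - x) ::ₘ ((Finset.univ : Finset ι).val.map cap).erase (cap b₀) =
          (Finset.univ : Finset ι).val.map (Function.update cap b₀ (cap b₀ - x)) := by
        have hu : (Finset.univ : Finset ι).val = b₀ ::ₘ (Finset.univ : Finset ι).val.erase b₀ :=
          (Multiset.cons_erase (Finset.mem_univ_val b₀)).symm
        rw [hu, Multiset.map_cons, Multiset.map_cons, Multiset.erase_cons_head]
        simp only [Function.update_self]
        congr 1
        apply Multiset.map_congr rfl
        intro y hy
        have : y ≠ b₀ := ((Finset.univ : Finset ι).nodup.mem_erase_iff.mp hy).1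
        simp [Function.update_of_ne this]
      rw [key]
      refine fits_of_assignment xs _ (fun i => f i.succ) ?_
      intro b
      have := h b
      rw [hsum] at this
      by_cases hb : b₀ = b
      · subst hb
        simp only [if_true, Function.update_self] at this ⊢
        omega
      · simp only [if_neg hb, zero_add] at this
        simpa [Function.update_of_ne (Ne.symm hb)] using this

/-! ### Tables of infeasible capacity vectors -/

/-- Larger residual capacities keep a packing possible. -/
theorem Fits.mono : ∀ (xs : List ℕ) (M N : Multiset ℕ), Fits xs M →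
    Multiset.Rel (· ≤ ·) M N → Fits xs N
  | [], _, _, _, _ => trivial
  | x :: xs, M, N, ⟨r, hr, hx, hf⟩, hrel => by
    have hM : r ::ₘ M.erase r = M := Multiset.cons_erase hr
    rw [← hM] at hrel
    obtain ⟨b, N', hrb, hrel', rfl⟩ := Multiset.rel_cons_left.mp hrel
    refine ⟨b, Multiset.mem_cons_self _ _, hx.trans hrb, ?_⟩
    rw [Multiset.erase_cons_head]
    exact Fits.mono xs _ _ hf (hrel'.cons (Nat.sub_le_sub_right hrb x))

/-- Pointwise comparison of two lists. -/
def dom : List ℕ → List ℕ → Bool
  | [], [] => true
  | x :: xs, y :: ys => Nat.ble x y && dom xs ys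
  | _, _ => false

theorem rel_of_dom : ∀ (l₁ l₂ : List ℕ), dom l₁ l₂ = true →
    Multiset.Rel (· ≤ ·) (l₁ : Multiset ℕ) (l₂ : Multiset ℕ)
  | [], [], _ => Multiset.Rel.zero
  | x :: xs, y :: ys, h => by
    unfold dom at h
    rw [Bool.and_eq_true] at h
    have := rel_of_dom xs ys h.2
    rw [← Multiset.cons_coe, ← Multiset.cons_coe]
    exact this.cons (Nat.ble_eq.mp h.1)

/-- Insertion into a list in decreasing order (the order only matters for the efficiency of the
comparison `dom`). -/
def insDesc (v : ℕ) : List ℕ → List ℕ
  | [] => [v]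
  | y :: ys => bif Nat.ble y v then v :: y :: ys else y :: insDesc v ys

theorem insDesc_coe (v : ℕ) : ∀ l : List ℕ,
    ((insDesc v l : List ℕ) : Multiset ℕ) = v ::ₘ (l : Multiset ℕ)
  | [] => rfl
  | y :: ys => by
    unfold insDesc
    cases Nat.ble y v
    · simp only [cond_false]
      rw [← Multiset.cons_coe, insDesc_coe v ys, ← Multiset.cons_coe, Multiset.cons_swap]
    · rfl

/-- The vector `U` of residual capacities is refuted for an item of size `x`, followed by items
refuted by the vectors in `next`: wherever the item is placed, the new vector is dominated by a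
vector in `next`. -/
def stepOK (x : ℕ) (next : List (List ℕ)) (U : List ℕ) : Bool :=
  (uniq U).all fun r => !Nat.ble x r || next.any (dom (insDesc (r - x) (U.erase r)))

/-- Check of a table with one level of capacity vectors per item. -/
def certOK : List ℕ → List (List (List ℕ)) → Bool
  | [], lvls => (lvls.headD []).isEmpty
  | x :: xs, lvls => (lvls.headD []).all (stepOK x (lvls.tail.headD [])) && certOK xs lvls.tail

theorem fails_of_certOK : ∀ (xs : List ℕ) (lvls : List (List (List ℕ))), certOK xs lvls = true →
    ∀ U ∈ lvls.headD [], ¬ Fits xs (U : Multiset ℕ)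
  | [], lvls, h, U, hU, _ => by
    unfold certOK at h
    rw [List.isEmpty_iff] at h
    rw [h] at hU
    cases hU
  | x :: xs, lvls, h, U, hU, hf => by
    unfold certOK at h
    rw [Bool.and_eq_true] at h
    obtain ⟨h1, h2⟩ := h
    have hstep := List.all_eq_true.mp h1 U hU
    obtain ⟨r, hr, hx, hf'⟩ := hf
    unfold stepOK at hstep
    have hr' := List.all_eq_true.mp hstep r (mem_uniq (Multiset.mem_coe.mp hr))
    rw [Bool.or_eq_true] at hr'
    rcases hr' with h3 | h3
    · have : Nat.ble x r = true := Nat.ble_eq.mpr hx
      rw [this] at h3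
      exact Bool.noConfusion h3
    · obtain ⟨D, hD, hdom⟩ := List.any_eq_true.mp h3
      refine fails_of_certOK xs lvls.tail h2 D hD (Fits.mono xs _ _ hf' ?_)
      have hrel := rel_of_dom _ _ hdom
      rwa [insDesc_coe, ← Multiset.coe_erase] at hrel

theorem not_fits_of_cert {L K : ℕ} {s : List ℕ} {lvls : List (List (List ℕ))}
    (h : certOK s lvls = true)
    (hroot : (lvls.headD []).any (dom (List.replicate K L)) = true) :
    ¬ Fits s ((List.replicate K L : List ℕ) : Multiset ℕ) := by
  obtain ⟨D, hD, hdom⟩ := List.any_eq_true.mp hroot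
  exact fun hf => fails_of_certOK s lvls h D hD (Fits.mono s _ _ hf (rel_of_dom _ _ hdom))

/-! ### The certificate theorem -/

/-- The rational sizes `n / L` of a list of natural numbers. -/
def scaled (L : ℕ) (s : List ℕ) : List ℚ := s.map fun n : ℕ => (n : ℚ) / L

theorem scaled_isInstance {L : ℕ} {s : List ℕ} (hs : ∀ x ∈ s, 0 < x ∧ x ≤ L) :
    IsInstance (scaled L s) := by
  intro q hq
  obtain ⟨n, hn, rfl⟩ := List.mem_map.mp hq
  obtain ⟨h0, h1⟩ := hs n hn
  have hL : (0 : ℚ) < L := by exact_mod_cast lt_of_lt_of_le h0 h1
  constructor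
  · exact div_pos (by exact_mod_cast h0) hL
  · rw [div_le_one hL]; exact_mod_cast h1

theorem get_map_cast {α β : Type} (g : α → β) (l : List α) (i : Fin (l.map g).length) :
    (l.map g).get i = g (l.get (Fin.cast (List.length_map g) i)) := by
  simp

theorem not_packable_scaled {L K : ℕ} (hL : 0 < L) {s : List ℕ}
    (h : ¬ Fits s ((List.replicate K L : List ℕ) : Multiset ℕ)) : ¬ PackableIn (scaled L s) K := by
  rintro ⟨f, hf⟩
  have hlen : (scaled L s).length = s.length := by simp [scaled]
  let f' : Fin s.length → Fin K := fun i => f (Fin.cast hlen.symm i)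
  have hLq : (0 : ℚ) < L := by exact_mod_cast hL
  have key : ∀ b, ∑ i ∈ Finset.univ.filter (fun i => f' i = b), s.get i ≤ L := by
    intro b
    have h1 := hf b
    have h2 : ∑ i ∈ Finset.univ.filter (fun i => f i = b), (scaled L s).get i =
        ∑ i ∈ Finset.univ.filter (fun i => f' i = b), ((s.get i : ℕ) : ℚ) / L := by
      rw [Finset.sum_filter, Finset.sum_filter]
      refine Fintype.sum_equiv (finCongr hlen) _ _ ?_
      intro i
      have hc : Fin.cast hlen.symm (finCongr hlen i) = i := by ext; simp
      have hf' : f' (finCongr hlen i) = f i := by simp only [f', hc]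
      have hget : (scaled L s).get i = ((s.get (finCongr hlen i) : ℕ) : ℚ) / L := by
        exact get_map_cast (fun n : ℕ => (n : ℚ) / L) s i
      rw [hf', hget]
    rw [h2, ← Finset.sum_div, div_le_one hLq] at h1
    exact_mod_cast h1
  have hfits := fits_of_assignment s (fun _ : Fin K => L) f' key
  have hm : (Finset.univ : Finset (Fin K)).val.map (fun _ => L) =
      ((List.replicate K L : List ℕ) : Multiset ℕ) := by
    rw [Multiset.map_const', Multiset.coe_replicate]
    simp
  rw [hm] at hfits
  exact h hfits

theorem packable_mono {a : List ℚ} {k K : ℕ} (hk : k ≤ K) (h : PackableIn a k) :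
    PackableIn a K := by
  obtain ⟨f, hf⟩ := h
  refine ⟨fun i => Fin.castLE hk (f i), ?_⟩
  intro b
  by_cases hb : ∃ b' : Fin k, Fin.castLE hk b' = b
  · obtain ⟨b', rfl⟩ := hb
    have : (Finset.univ.filter fun i => Fin.castLE hk (f i) = Fin.castLE hk b') =
        Finset.univ.filter fun i => f i = b' := by
      ext i; simp [Fin.castLE_inj]
    rw [this]
    exact hf b'
  · have : (Finset.univ.filter fun i => Fin.castLE hk (f i) = b) = ∅ := by
      ext i
      simp only [Finset.mem_filter, Finset.mem_univ, true_and, Finset.notMem_empty, iff_false]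
      exact fun hi => hb ⟨f i, hi⟩
    rw [this]
    simp

theorem packable_self {a : List ℚ} (h : IsInstance a) : PackableIn a a.length := by
  refine ⟨id, ?_⟩
  intro b
  have : (Finset.univ.filter fun i => id i = b) = {b} := by
    ext i; simp
  rw [this, Finset.sum_singleton]
  exact (h _ (List.get_mem a b)).2

theorem OPT_ge {a : List ℚ} (h : IsInstance a) {K : ℕ} (hK : ¬ PackableIn a K) :
    K + 1 ≤ OPT a := by
  have hne : {k | PackableIn a k}.Nonempty := ⟨_, packable_self h⟩
  have hmem : PackableIn a (OPT a) := Nat.sInf_mem hne
  by_contra hlt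
  exact hK (packable_mono (by omega) hmem)

theorem LP_le {a : List ℚ} {v : ℝ} (h : LPFeasibleValue a v) : LP a ≤ v := by
  refine csInf_le ⟨0, ?_⟩ h
  rintro w ⟨m, c, z, -, hz, -, rfl⟩
  exact Finset.sum_nonneg fun j _ => hz j

/-- The certificate theorem: a proof that the items do not fit into `K` bins and an explicit
fractional solution give a lower bound on `OPT - LP`. -/
theorem gap_of_certificate (L K D : ℕ) (hL : 0 < L) (hD : 0 < D) (s : List ℕ)
    (pats : List (ℕ × List ℕ))
    (hs : ∀ x ∈ s, 0 < x ∧ x ≤ L)
    (hinf : ¬ Fits s ((List.replicate K L : List ℕ) : Multiset ℕ))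
    (hpat : ∀ p ∈ pats, p.2.sum ≤ L ∧ ∀ x ∈ p.2, x ∈ s)
    (hcov : ∀ x ∈ s, s.count x * D ≤ (pats.map fun p => p.1 * p.2.count x).sum) :
    IsInstance (scaled L s) ∧
      ((K : ℝ) + 1 - ((pats.map Prod.fst).sum : ℝ) / D ≤ (OPT (scaled L s) : ℝ) - LP (scaled L s)) := by
  have hinst := scaled_isInstance hs
  refine ⟨hinst, ?_⟩
  have hLq : (0 : ℚ) < L := by exact_mod_cast hL
  have hDr : (0 : ℝ) < D := by exact_mod_cast hD
  have hopt : K + 1 ≤ OPT (scaled L s) := OPT_ge hinst (not_packable_scaled hL hinf)
  have hoptR : (K : ℝ) + 1 ≤ (OPT (scaled L s) : ℝ) := by exact_mod_cast hopt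
  set g : ℕ → ℚ := fun n => (n : ℚ) / L with hg
  have hinj : Function.Injective g := by
    intro x y hxy
    have h1 : (x : ℚ) / L = (y : ℚ) / L := hxy
    have h2 : (x : ℚ) = y := by
      field_simp at h1
      exact h1
    exact_mod_cast h2
  have hfin : (scaled L s).toFinset = s.toFinset.image g := by
    ext q; simp [scaled, g]
  have hflo : ∀ n : ℕ, ⌊g n * L⌋₊ = n := by
    intro n
    have : g n * L = n := by
      simp only [hg]; field_simp
    rw [this]
    simp
  -- the configurations
  let c : Fin pats.length → ℚ → ℕ := fun j σ => (pats.get j).2.count ⌊σ * L⌋₊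
  let z : Fin pats.length → ℝ := fun j => ((pats.get j).1 : ℝ) / D
  have hfeas : LPFeasibleValue (scaled L s) (((pats.map Prod.fst).sum : ℝ) / D) := by
    refine ⟨pats.length, c, z, ?_, ?_, ?_, ?_⟩
    · intro j
      unfold IsConfiguration
      rw [hfin, Finset.sum_image (fun x _ y _ h => hinj h)]
      have hj := hpat (pats.get j) (List.get_mem _ _)
      have hsum : ∑ x ∈ s.toFinset, (c j (g x) : ℚ) * g x =
          (∑ x ∈ s.toFinset, (pats.get j).2.count x * x : ℕ) / L := by
        push_cast
        rw [Finset.sum_div]
        refine Finset.sum_congr rfl fun x _ => ?_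
        simp only [c, hflo]
        simp only [hg]
        ring
      rw [hsum, div_le_one hLq]
      have hcount : ∑ x ∈ s.toFinset, (pats.get j).2.count x * x = (pats.get j).2.sum := by
        have h1 := Finset.sum_list_map_count (pats.get j).2 (fun x : ℕ => x)
        simp only [List.map_id', smul_eq_mul] at h1
        rw [h1]
        symm
        refine Finset.sum_subset ?_ ?_
        · intro x hx
          exact List.mem_toFinset.mpr (hj.2 x (List.mem_toFinset.mp hx))
        · intro x _ hx
          have : (pats.get j).2.count x = 0 := by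
            apply List.count_eq_zero_of_not_mem
            simpa using hx
          rw [this, zero_mul]
      rw [hcount]
      exact_mod_cast hj.1
    · intro j
      exact div_nonneg (Nat.cast_nonneg _) hDr.le
    · intro σ hσ
      rw [hfin] at hσ
      obtain ⟨x, hx, rfl⟩ := Finset.mem_image.mp hσ
      have hxs : x ∈ s := List.mem_toFinset.mp hx
      have hcount : (scaled L s).count (g x) = s.count x := by
        unfold scaled
        exact List.count_map_of_injective _ _ hinj _
      rw [hcount]
      have hc := hcov x hxs
      have hsumeq : (pats.map fun p => p.1 * p.2.count x).sum =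
          ∑ j : Fin pats.length, (pats.get j).1 * (pats.get j).2.count x := by
        rw [← Fin.sum_univ_fun_getElem]
        rfl
      rw [hsumeq] at hc
      have hcR : ((s.count x : ℕ) : ℝ) * D ≤
          ∑ j : Fin pats.length, ((pats.get j).1 : ℝ) * ((pats.get j).2.count x : ℝ) := by
        exact_mod_cast hc
      have : ∑ j, z j * (c j (g x) : ℝ) =
          (∑ j : Fin pats.length, ((pats.get j).1 : ℝ) * ((pats.get j).2.count x : ℝ)) / D := by
        rw [Finset.sum_div]
        refine Finset.sum_congr rfl fun j _ => ?_
        simp only [z, c, hflo]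
        ring
      rw [this, le_div_iff₀ hDr]
      exact hcR
    · have hsumeq : (pats.map Prod.fst).sum = ∑ j : Fin pats.length, (pats.get j).1 := by
        rw [← Fin.sum_univ_fun_getElem]
        rfl
      rw [hsumeq]
      push_cast
      rw [Finset.sum_div]
  have hlp := LP_le hfeas
  linarith

end Vale.Agent.helper8.BinPackGap
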